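import Mathlib
import Vale.Agent.Lib.P013.Runs

/-!
Uniform growth of the maximal covered run over every window of new primes, with a first moment
class of integers where Jacobsthal's function is linear in the number of prime factors.
-/

open Vale.Agent.Lib.P013 in
theorem Vale.Agent.Results.P013.A_runs.result :
    (∃ m₀ : ℕ, ∀ S R : Finset ℕ, (∀ p ∈ S, p.Prime) → (∀ p ∈ R, p.Prime) → Disjoint S R →
      m₀ ≤ R.card → (∀ p : ℕ, p.Prime → (p : ℝ) ≤ Real.log R.card → p ∈ S ∪ R) →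
      ∀ L : ℕ, RunOn S L →
        RunOn (S ∪ R) (L + ⌊(R.card : ℝ) * Real.log (Real.log R.card) / 8⌋₊)) ∧
    (∃ m₀ : ℕ, ∀ m, m₀ ≤ m → ∀ k L : ℕ, HasRun k L →
      HasRun (k + m) (L + ⌊(m : ℝ) * Real.log (Real.log m) / 8⌋₊)) ∧
    (∃ m₀ : ℕ, ∀ m, m₀ ≤ m → ∀ k L : ℕ, RunOn (firstPrimes k) L →
      RunOn (firstPrimes (k + m)) (L + ⌊(m : ℝ) * Real.log (Real.log m) / 8⌋₊)) ∧
    (∀ (S A : Finset ℕ), (∀ p ∈ S, p.Prime) → A ⊆ S → ∀ δ : ℝ, 0 < δ →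
      δ ≤ ∏ p ∈ A, (1 - 1 / (p : ℝ)) - ∑ p ∈ S \ A, 1 / (p : ℝ) →
      ∀ L : ℕ, ((S \ A).card : ℝ) / δ + ∏ p ∈ A, (p : ℝ) ≤ L →
      ∀ a : ℤ, ∃ i : ℕ, i < L ∧ ∀ p ∈ S, ¬ (p : ℤ) ∣ a + i) :=
  ⟨window_quant, run_increment_quant, primorial_increment_quant,
    fun S A hS hA δ hδ h L hL a => first_moment S A hS hA δ hδ h L hL a⟩
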