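import Mathlib
import Vale.Agent.Lib.P013.Bridge

/-!
Reduction of arbitrary sets of primes to the first primes: a run covered by `k` primes is covered
by the first `k + m` primes for large `m`; exponents transfer; Vaughan's estimate for all integers
is equivalent to the same estimate for primorials.
-/

open Vale.Agent.Lib.P013 in
theorem Vale.Agent.Results.P013.C_primorial_reduction.result :
    (∀ k m L : ℕ, HasRun k L → k * (L / Nat.nth Nat.Prime (k + m) + 1) ≤ m →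
      RunOn (firstPrimes (k + m)) L) ∧
    (∀ α C : ℝ, 1 ≤ α → α < 2 → 0 ≤ C →
      (∀ k : ℕ, 1 ≤ k → ∀ L : ℕ, RunOn (firstPrimes k) L → (L : ℝ) ≤ C * (k : ℝ) ^ α) →
      ∃ C' : ℝ, ∀ k : ℕ, 1 ≤ k → ∀ L : ℕ, HasRun k L →
        (L : ℝ) ≤ C' * (k : ℝ) ^ (α / (2 - α))) ∧
    ((∀ ε : ℝ, 0 < ε → ∃ C : ℝ, ∀ k : ℕ, 1 ≤ k → ∀ L : ℕ, RunOn (firstPrimes k) L →
        (L : ℝ) ≤ C * (k : ℝ) ^ (1 + ε)) ↔
      (∀ ε : ℝ, 0 < ε → ∃ C : ℝ, ∀ k : ℕ, 1 ≤ k → ∀ L : ℕ, HasRun k L →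
        (L : ℝ) ≤ C * (k : ℝ) ^ (1 + ε))) :=
  ⟨bridge, fun α C h1 h2 h3 h4 => exponent_transfer α C h1 h2 h3 h4, vaughan_iff⟩
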