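import Mathlib
import Vale.Agent.Lib.P013.BridgeLog

/-!
A bound `j(P_k) ≪ k (log k)^A` for primorials implies `h(k) ≪ k (log k)^(2A)` for all sets of
primes; so a polylogarithmic excess over `k` holds for primorials if and only if it holds for all
integers.
-/

open Vale.Agent.Lib.P013 in
theorem Vale.Agent.Results.P013.D_polylog_reduction.result :
    (∀ A C : ℝ, 0 < A → 0 ≤ C →
      (∀ k : ℕ, 2 ≤ k → ∀ L : ℕ, RunOn (firstPrimes k) L → (L : ℝ) ≤ C * k * Real.log k ^ A) →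
      ∃ C' : ℝ, ∀ k : ℕ, 2 ≤ k → ∀ L : ℕ, HasRun k L →
        (L : ℝ) ≤ C' * k * Real.log k ^ (2 * A)) ∧
    ((∃ A C : ℝ, 0 < A ∧ 0 ≤ C ∧ ∀ k : ℕ, 2 ≤ k → ∀ L : ℕ, RunOn (firstPrimes k) L →
        (L : ℝ) ≤ C * k * Real.log k ^ A) ↔
      (∃ A C : ℝ, 0 < A ∧ 0 ≤ C ∧ ∀ k : ℕ, 2 ≤ k → ∀ L : ℕ, HasRun k L →
        (L : ℝ) ≤ C * k * Real.log k ^ A)) :=
  ⟨fun A C hA hC h => polylog_transfer A C hA hC h, polylog_iff⟩
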